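import Claimed.Agent.R282.Rep.R.Api.Wt
import Claimed.Agent.R282.Defs.Dot

/-!
# Row 282, Rep, LEAF L-REP-API-ADD : (A6) additivity of multiplicities, (A7) highest weight vectors  (~350 lines)

Statements by helper103.  Cite `Api/Lie`, `Api/Inv`, `Api/Wt`, `R/Root` freely.  (A6): with the equivariant projection `P` of `exists_proj` onto `S₁`: `(S₁ ⊔ S₂) ⊓ W = (S₁ ⊓ W) ⊕ (S₂ ⊓ W)` for `W = R.wt χ` or
`R.wt χ ⊓ R.prim` (`P` preserves `W`), then `Submodule.finrank_sup_add_finrank_inf_eq`.  (A7): `isHW_iff`: by `isRootVec_unique` every root vector is a multiple of `rootVec β`.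
`prim_of_max`: `R.op (rootVec β) a ∈ S ⊓ R.wt (χ + β.vec)` has larger height, so that space is `⊥`.
-/

set_option autoImplicit false

namespace Claimed.Agent.R282

open Claims.C0456 Matrix

variable {n : ℕ} {ty : Ty}
variable {ι ι' : Type} [Fintype ι] [DecidableEq ι] [Fintype ι'] [DecidableEq ι']

/-! ## (A6) additivity of multiplicities -/

/-- abstract additivity: `W` is stable under the projection onto `S₁` -/
theorem apiAdd_finrank (S₁ S₂ W : Submodule ℂ (ι → ℂ)) (horth : S₂ ≤ orthC S₁)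
    (P : (ι → ℂ) →ₗ[ℂ] (ι → ℂ)) (hP1 : ∀ a ∈ S₁, P a = a) (hP2 : ∀ a ∈ orthC S₁, P a = 0)
    (hW : ∀ a ∈ W, P a ∈ W) :
    Module.finrank ℂ ((S₁ ⊔ S₂) ⊓ W : Submodule ℂ (ι → ℂ))
      = Module.finrank ℂ (S₁ ⊓ W : Submodule ℂ (ι → ℂ)) + Module.finrank ℂ (S₂ ⊓ W : Submodule ℂ (ι → ℂ)) := by
  have e1 : (S₁ ⊔ S₂) ⊓ W = (S₁ ⊓ W) ⊔ (S₂ ⊓ W) := by
    apply le_antisymm
    · rintro x ⟨hx, hxW⟩
      obtain ⟨s, hs, t, ht, rfl⟩ := Submodule.mem_sup.1 hx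
      have hPx : P (s + t) = s := by rw [map_add, hP1 s hs, hP2 t (horth ht), add_zero]
      have hsW : s ∈ W := by rw [← hPx]; exact hW _ hxW
      have htW : t ∈ W := by
        have : t = (s + t) - s := by abel
        rw [this]
        exact W.sub_mem hxW hsW
      exact Submodule.add_mem_sup ⟨hs, hsW⟩ ⟨ht, htW⟩
    · exact le_inf (sup_le_sup inf_le_left inf_le_left) (sup_le inf_le_right inf_le_right)
  have e2 : (S₁ ⊓ W) ⊓ (S₂ ⊓ W) = ⊥ := by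
    rw [eq_bot_iff]
    rintro x ⟨⟨h1, _⟩, ⟨h2, _⟩⟩
    have : x ∈ S₁ ⊓ orthC S₁ := ⟨h1, horth h2⟩
    rw [orthC_inf] at this
    exact this
  have h := Submodule.finrank_sup_add_finrank_inf_eq (S₁ ⊓ W) (S₂ ⊓ W)
  rw [e2, finrank_bot, add_zero] at h
  rw [e1, h]

theorem apiAdd_wt_stable (R : StarRep ty n ι) (χ : Vec n) (P : (ι → ℂ) →ₗ[ℂ] (ι → ℂ))
    (hP : ∀ X, ty.InG X → ∀ a, P (R.op X a) = R.op X (P a)) : ∀ a ∈ R.wt χ, P a ∈ R.wt χ := by
  intro a ha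
  rw [mem_wt] at ha ⊢
  intro x
  rw [← hP _ (inG_Hc x), ha x, map_smul]

theorem apiAdd_inG_rootVec (β : RootD n) (h : ty.IsRoot β) : ty.InG (rootVec β) := by
  have h0 := isRootVec_rootVec β
  refine ⟨h0.1.1, fun hty => ?_⟩
  subst hty
  have h1 := h0.2 (fun _ => 1)
  have h2 : dot β.vec (fun _ => (1 : ℝ)) = 0 := by
    have hp : β.si ≠ β.sj := h
    simp only [dot, RootD.vec, mul_one, Finset.sum_add_distrib, Finset.sum_ite_eq', Finset.mem_univ, if_true]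
    revert hp
    cases β.si <;> cases β.sj <;> simp [sgnB]
  rw [h2] at h1
  simp only [Complex.ofReal_zero, zero_smul, Hc, smul_mul_assoc, mul_smul_comm, ← smul_sub] at h1
  have h3 : JmatC (fun _ => (1 : ℝ)) * rootVec β - rootVec β * JmatC (fun _ => (1 : ℝ)) = 0 :=
    (smul_eq_zero.1 h1).resolve_left Complex.I_ne_zero
  exact (sub_eq_zero.1 h3).symm

theorem apiAdd_prim_stable (R : StarRep ty n ι) (P : (ι → ℂ) →ₗ[ℂ] (ι → ℂ))
    (hP : ∀ X, ty.InG X → ∀ a, P (R.op X a) = R.op X (P a)) : ∀ a ∈ R.prim, P a ∈ R.prim := by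
  intro a ha
  unfold StarRep.prim at ha ⊢
  rw [Submodule.mem_iInf] at ha ⊢
  intro β
  have := ha β
  rw [LinearMap.mem_ker] at this ⊢
  rw [← hP _ (apiAdd_inG_rootVec β.1 β.2.2), this, map_zero]

theorem mult_add (R : StarRep ty n ι) (S₁ S₂ : Submodule ℂ (ι → ℂ)) (h₁ : R.Inv S₁) (h₂ : R.Inv S₂)
    (horth : S₂ ≤ orthC S₁) (χ : Vec n) : R.mult (S₁ ⊔ S₂) χ = R.mult S₁ χ + R.mult S₂ χ := by
  obtain ⟨P, _, hP1, hP2, hP3, _⟩ := exists_proj R S₁ h₁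
  exact apiAdd_finrank S₁ S₂ (R.wt χ) horth P hP1 hP2 (apiAdd_wt_stable R χ P hP3)

theorem hwMult_add (R : StarRep ty n ι) (S₁ S₂ : Submodule ℂ (ι → ℂ)) (h₁ : R.Inv S₁)
    (h₂ : R.Inv S₂) (horth : S₂ ≤ orthC S₁) (χ : Vec n) :
    R.hwMult (S₁ ⊔ S₂) χ = R.hwMult S₁ χ + R.hwMult S₂ χ := by
  obtain ⟨P, _, hP1, hP2, hP3, _⟩ := exists_proj R S₁ h₁
  have h := apiAdd_finrank S₁ S₂ (R.wt χ ⊓ R.prim) horth P hP1 hP2
    (fun a ha => ⟨apiAdd_wt_stable R χ P hP3 a ha.1, apiAdd_prim_stable R P hP3 a ha.2⟩)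
  unfold StarRep.hwMult
  rw [inf_assoc, inf_assoc, inf_assoc]
  exact h

/-! ## (A7) highest weight vectors -/

theorem mem_prim (R : StarRep Ty.D n ι) (a : ι → ℂ) :
    a ∈ R.prim ↔ ∀ β : RootD n, β.Pos → R.op (rootVec β) a = 0 := by
  unfold StarRep.prim
  rw [Submodule.mem_iInf]
  constructor
  · intro h β hβ
    exact LinearMap.mem_ker.1 (h ⟨β, hβ, trivial⟩)
  · intro h β
    exact LinearMap.mem_ker.2 (h β.1 β.2.1)

theorem isHW_iff (R : StarRep Ty.D n ι) (v : ι → ℂ) (lam : Vec n) :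
    IsHW R v lam ↔ v ≠ 0 ∧ v ∈ R.wt lam ∧ v ∈ R.prim := by
  constructor
  · intro h
    refine ⟨h.ne, (mem_wt R lam v).2 h.wt, (mem_prim R v).2 fun β hβ => ?_⟩
    exact h.top β (rootVec β) hβ (isRootVec_rootVec β)
  · rintro ⟨h0, h1, h2⟩
    refine ⟨h0, (mem_wt R lam v).1 h1, fun β E hβ hE => ?_⟩
    obtain ⟨c, rfl⟩ := isRootVec_unique β E hE
    have := (mem_prim R v).1 h2 β hβ
    rw [op_apply] at this
    rw [map_smul, Matrix.smul_mulVec, this, smul_zero]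

/-- a weight vector of maximal height in an invariant subspace is primitive -/
theorem prim_of_max (R : StarRep Ty.D n ι) (S : Submodule ℂ (ι → ℂ)) (h : R.Inv S) (χ : Vec n)
    (hmax : ∀ χ', R.mult S χ' ≠ 0 → dot χ' (rhoV n) ≤ dot χ (rhoV n)) (a : ι → ℂ)
    (ha : a ∈ S ⊓ R.wt χ) : a ∈ R.prim := by
  rw [mem_prim]
  intro β hβ
  by_contra hne
  have hb : R.op (rootVec β) a ∈ S ⊓ R.wt (χ + β.vec) :=
    ⟨h _ (isRootVec_rootVec β).1 a ha.1, wt_shift R χ β a ha.2⟩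
  have hm : R.mult S (χ + β.vec) ≠ 0 := by
    unfold StarRep.mult
    intro h0
    rw [Submodule.finrank_eq_zero] at h0
    rw [h0] at hb
    exact hne ((Submodule.mem_bot ℂ).1 hb)
  have h1 := hmax _ hm
  rw [dot_add_left] at h1
  have h2 : 0 < dot β.vec (rhoV n) := hβ
  linarith

end Claimed.Agent.R282
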