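import Claimed.Agent.R282.Rep.R.Api.Lie

/-!
# Row 282, Rep, LEAF L-REP-API-INV : (A3) invariant subspaces, cyclic modules, (A4) orthogonal complements  (~350 lines)

Statements by helper103.  Cite `Api/Lie` freely.  (A4): transport to `EuclideanSpace ℂ ι` (`Submodule.orthogonal`, `Submodule.sup_orthogonal_of_hasOrthogonalProjection`, `Submodule.orthogonal_orthogonal`)
or argue by dimension with the nondegenerate form.  `inv_orthC`: for `b ∈ orthC S`, `a ∈ S`: `star a ⬝ᵥ R.op X b = star (R.op Xᴴ a) ⬝ᵥ b = 0` (`op_adjoint` for `Xᴴ`, `inG_conjTranspose`).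
`exists_proj`: the projection along `S ⊕ orthC S`; equivariant since both summands are invariant; self-adjoint since the summands are orthogonal.
-/

set_option autoImplicit false

namespace Claimed.Agent.R282

open Claims.C0456 Matrix

variable {n : ℕ} {ty : Ty}
variable {ι ι' : Type} [Fintype ι] [DecidableEq ι] [Fintype ι'] [DecidableEq ι']

/-! ## (A3) invariant subspaces, cyclic modules -/

theorem cyc_inv (R : StarRep ty n ι) (v : ι → ℂ) : R.Inv (R.cyc v) := by
  intro X hX a ha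
  unfold StarRep.cyc at ha ⊢
  rw [Submodule.mem_sInf] at ha ⊢
  intro S hS
  exact hS.2 X hX a (ha S hS)

theorem mem_cyc (R : StarRep ty n ι) (v : ι → ℂ) : v ∈ R.cyc v := by
  unfold StarRep.cyc
  rw [Submodule.mem_sInf]
  intro S hS
  exact hS.1

theorem cyc_le (R : StarRep ty n ι) (v : ι → ℂ) (S : Submodule ℂ (ι → ℂ)) (hS : R.Inv S)
    (hv : v ∈ S) : R.cyc v ≤ S := by
  exact sInf_le ⟨hv, hS⟩

theorem inv_inf (R : StarRep ty n ι) (S S' : Submodule ℂ (ι → ℂ)) (h : R.Inv S) (h' : R.Inv S') :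
    R.Inv (S ⊓ S') := by
  intro X hX a ha
  exact ⟨h X hX a ha.1, h' X hX a ha.2⟩

theorem inv_sup (R : StarRep ty n ι) (S S' : Submodule ℂ (ι → ℂ)) (h : R.Inv S) (h' : R.Inv S') :
    R.Inv (S ⊔ S') := by
  intro X hX a ha
  obtain ⟨s, hs, t, ht, rfl⟩ := Submodule.mem_sup.1 ha
  rw [map_add]
  exact Submodule.add_mem_sup (h X hX s hs) (h' X hX t ht)

theorem inv_iSup (R : StarRep ty n ι) {κ : Sort*} (S : κ → Submodule ℂ (ι → ℂ))
    (h : ∀ k, R.Inv (S k)) : R.Inv (⨆ k, S k) := by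
  intro X hX a ha
  induction ha using Submodule.iSup_induction' with
  | mem k x hx => exact Submodule.mem_iSup_of_mem k (h k X hX x hx)
  | zero => rw [map_zero]; exact Submodule.zero_mem _
  | add x y _ _ hx hy => rw [map_add]; exact Submodule.add_mem _ hx hy

/-! ## (A4) orthogonal complements -/

theorem apiInv_mem_orthC (S : Submodule ℂ (ι → ℂ)) (b : ι → ℂ) : b ∈ orthC S ↔ ∀ a ∈ S, star a ⬝ᵥ b = 0 :=
  Iff.rfl

theorem apiInv_star_dot_comm (a b : ι → ℂ) : star b ⬝ᵥ a = star (star a ⬝ᵥ b) :=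
  Matrix.star_dotProduct b a

theorem apiInv_orth_symm {a b : ι → ℂ} (h : star a ⬝ᵥ b = 0) : star b ⬝ᵥ a = 0 := by
  rw [apiInv_star_dot_comm, h, star_zero]

theorem inv_orthC (R : StarRep ty n ι) (S : Submodule ℂ (ι → ℂ)) (h : R.Inv S) : R.Inv (orthC S) := by
  intro X hX b hb a ha
  have h1 := op_adjoint R Xᴴ (inG_conjTranspose X hX) a b
  rw [conjTranspose_conjTranspose] at h1
  rw [← h1]
  exact hb _ (h Xᴴ (inG_conjTranspose X hX) a ha)

/-- orthogonal decomposition of a vector -/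
theorem apiInv_decomp (S : Submodule ℂ (ι → ℂ)) (x : ι → ℂ) : ∃ s ∈ S, ∃ t ∈ orthC S, x = s + t := by
  let e : EuclideanSpace ℂ ι ≃ₗ[ℂ] (ι → ℂ) := WithLp.linearEquiv 2 ℂ (ι → ℂ)
  let K : Submodule ℂ (EuclideanSpace ℂ ι) := S.comap e.toLinearMap
  obtain ⟨y, hy, z, hz, hx⟩ := K.exists_add_mem_mem_orthogonal (e.symm x)
  refine ⟨e y, hy, e z, ?_, ?_⟩
  · intro a ha
    have h1 : e.symm a ∈ K := by
      show e (e.symm a) ∈ S
      rw [LinearEquiv.apply_symm_apply]
      exact ha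
    have h2 : inner ℂ (e.symm a) z = 0 := (Submodule.mem_orthogonal K z).1 hz _ h1
    rw [EuclideanSpace.inner_eq_star_dotProduct, dotProduct_comm] at h2
    exact h2
  · rw [← map_add, ← hx, LinearEquiv.apply_symm_apply]

theorem orthC_sup (S : Submodule ℂ (ι → ℂ)) : S ⊔ orthC S = ⊤ := by
  rw [eq_top_iff]
  intro x _
  obtain ⟨s, hs, t, ht, rfl⟩ := apiInv_decomp S x
  exact Submodule.add_mem_sup hs ht

theorem orthC_inf (S : Submodule ℂ (ι → ℂ)) : S ⊓ orthC S = ⊥ := by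
  rw [eq_bot_iff]
  intro a ha
  exact (Submodule.mem_bot ℂ).2 ((star_dot_self_eq_zero a).1 (ha.2 a ha.1))

theorem orthC_orthC (S : Submodule ℂ (ι → ℂ)) : orthC (orthC S) = S := by
  apply le_antisymm
  · intro x hx
    obtain ⟨s, hs, t, ht, rfl⟩ := apiInv_decomp S x
    have h1 := hx t ht
    rw [dotProduct_add, apiInv_orth_symm (ht s hs), zero_add] at h1
    rw [(star_dot_self_eq_zero t).1 h1, add_zero]
    exact hs
  · intro a ha b hb
    exact apiInv_orth_symm (hb a ha)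

/-- relative complement inside an invariant subspace -/
theorem orthC_rel (S S' : Submodule ℂ (ι → ℂ)) (h : S ≤ S') : S ⊔ (S' ⊓ orthC S) = S' := by
  rw [inf_comm, ← sup_inf_assoc_of_le (orthC S) h, orthC_sup, top_inf_eq]

/-- the orthogonal projection onto an invariant subspace is equivariant -/
theorem exists_proj (R : StarRep ty n ι) (S : Submodule ℂ (ι → ℂ)) (h : R.Inv S) :
    ∃ P : (ι → ℂ) →ₗ[ℂ] (ι → ℂ), (∀ a, P a ∈ S) ∧ (∀ a ∈ S, P a = a) ∧ (∀ a ∈ orthC S, P a = 0) ∧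
      (∀ X, ty.InG X → ∀ a, P (R.op X a) = R.op X (P a)) ∧
      ∀ a b, star (P a) ⬝ᵥ b = star a ⬝ᵥ P b := by
  have hc : IsCompl S (orthC S) := ⟨disjoint_iff.2 (orthC_inf S), codisjoint_iff.2 (orthC_sup S)⟩
  let P : (ι → ℂ) →ₗ[ℂ] (ι → ℂ) := S.subtype ∘ₗ S.projectionOnto (orthC S) hc
  have hP1 : ∀ a ∈ S, P a = a := by
    intro a ha
    show ((S.projectionOnto (orthC S) hc a : S) : ι → ℂ) = a
    rw [Submodule.projectionOnto_apply_left hc ⟨a, ha⟩]
  have hP2 : ∀ a ∈ orthC S, P a = 0 := by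
    intro a ha
    show ((S.projectionOnto (orthC S) hc a : S) : ι → ℂ) = 0
    rw [(Submodule.projectionOnto_apply_eq_zero_iff hc).2 ha]
    rfl
  refine ⟨P, fun a => (S.projectionOnto (orthC S) hc a).2, hP1, hP2, ?_, ?_⟩
  · intro X hX a
    obtain ⟨s, hs, t, ht, rfl⟩ := apiInv_decomp S a
    rw [map_add, map_add, map_add, hP1 s hs, hP2 t ht, add_zero, hP1 _ (h X hX s hs),
      hP2 _ (inv_orthC R S h X hX t ht), add_zero]
  · intro a b
    obtain ⟨s, hs, t, ht, rfl⟩ := apiInv_decomp S a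
    obtain ⟨s', hs', t', ht', rfl⟩ := apiInv_decomp S b
    rw [map_add, map_add, hP1 s hs, hP2 t ht, hP1 s' hs', hP2 t' ht', add_zero, add_zero, dotProduct_add,
      ht' s hs, add_zero, star_add, add_dotProduct, apiInv_orth_symm (ht s' hs'), add_zero]

end Claimed.Agent.R282
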