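import Claimed.Agent.R282.Rep.R.Root

/-!
# Row 282, Rep, LEAF L-REP-API-LIE : (A1) the Lie algebra, (A2) operators  (~200 lines)

Statements by helper103.  Direct matrix computations.  `Hc x = I • JmatC x`, `JmatC x` real skew block diagonal, so `Hc x` is Hermitian and skew-symmetric;
all `JmatC x` commute (block diagonal with blocks `x_i [[0,-1],[1,0]]` or its transpose; see `Jmat`).  `InG` = skew-symmetric (and, for type A, commuting with `JmatC 1`).
`op_adjoint`: `star (A *ᵥ a) ⬝ᵥ b = star a ⬝ᵥ (Aᴴ *ᵥ b)` (`Matrix.star_mulVec`, `Matrix.dotProduct_mulVec`) and `R.star`.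
-/

set_option autoImplicit false

namespace Claimed.Agent.R282

open Claims.C0456 Matrix

variable {n : ℕ} {ty : Ty}
variable {ι ι' : Type} [Fintype ι] [DecidableEq ι] [Fintype ι'] [DecidableEq ι']

/-- orthogonal complement for the standard Hermitian form -/
def orthC (S : Submodule ℂ (ι → ℂ)) : Submodule ℂ (ι → ℂ) where
  carrier := {b | ∀ a ∈ S, star a ⬝ᵥ b = 0}
  add_mem' := by
    intro b c hb hc a ha
    rw [dotProduct_add, hb a ha, hc a ha, add_zero]
  zero_mem' := by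
    intro a _
    exact dotProduct_zero _
  smul_mem' := by
    intro c b hb a ha
    rw [dotProduct_smul, hb a ha, smul_zero]

/-- reindexing -/
noncomputable def StarRep.reindex (R : StarRep ty n ι) (e : ι ≃ ι') : StarRep ty n ι' where
  ρ := (Matrix.reindexLinearEquiv ℂ ℂ e e).toLinearMap ∘ₗ R.ρ
  bracket := by
    intro X Y hX hY
    show Matrix.reindexLinearEquiv ℂ ℂ e e (R.ρ (X * Y - Y * X)) =
      Matrix.reindexLinearEquiv ℂ ℂ e e (R.ρ X) * Matrix.reindexLinearEquiv ℂ ℂ e e (R.ρ Y) -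
      Matrix.reindexLinearEquiv ℂ ℂ e e (R.ρ Y) * Matrix.reindexLinearEquiv ℂ ℂ e e (R.ρ X)
    rw [R.bracket X Y hX hY, map_sub, Matrix.reindexLinearEquiv_mul, Matrix.reindexLinearEquiv_mul]
  star := by
    intro X hX
    show Matrix.reindexLinearEquiv ℂ ℂ e e (R.ρ Xᴴ) =
      (Matrix.reindexLinearEquiv ℂ ℂ e e (R.ρ X))ᴴ
    rw [R.star X hX]
    simp only [Matrix.coe_reindexLinearEquiv, Matrix.conjTranspose_reindex]

/-! ## (A1) the Lie algebra -/

theorem ral_JmatC_eq (x : Vec n) : JmatC x = (-Complex.I) • Hc x := by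
  unfold Hc
  rw [smul_smul]
  simp

theorem ral_Hc_conjTranspose (x : Vec n) : (Hc x)ᴴ = Hc x := by
  ext p q
  obtain ⟨k, a⟩ := p
  obtain ⟨l, b⟩ := q
  rw [Matrix.conjTranspose_apply, rrt_Hc_apply, rrt_Hc_apply]
  by_cases h : k = l
  · subst h
    fin_cases a <;> fin_cases b <;> simp
  · have h' : ¬ l = k := fun e => h e.symm
    simp [h, h']

theorem ral_JmatC_conjTranspose (x : Vec n) : (JmatC x)ᴴ = - JmatC x := by
  rw [ral_JmatC_eq, conjTranspose_smul, ral_Hc_conjTranspose]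
  simp

theorem ral_Hc_comm (x y : Vec n) : Hc x * Hc y = Hc y * Hc x := by
  apply rrt_ext
  intro i s j t
  rw [← Matrix.mulVec_mulVec, ← Matrix.mulVec_mulVec, rrt_Hc_mulVec, rrt_Hc_mulVec,
    Matrix.mulVec_smul, Matrix.mulVec_smul, rrt_Hc_mulVec, rrt_Hc_mulVec, smul_comm]

theorem inG_conjTranspose (X : Matrix (Ix n) (Ix n) ℂ) (h : ty.InG X) : ty.InG Xᴴ := by
  refine ⟨?_, fun hA => ?_⟩
  · rw [← conjTranspose_transpose_eq_transpose_conjTranspose, h.1, conjTranspose_neg]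
  · have h1 := congrArg conjTranspose (h.2 hA)
    rw [conjTranspose_mul, conjTranspose_mul, ral_JmatC_conjTranspose, Matrix.neg_mul,
      Matrix.mul_neg, neg_inj] at h1
    exact h1.symm

theorem inG_Hc (x : Vec n) : ty.InG (Hc x) := by
  refine ⟨rrt_Hc_transpose x, fun _ => ?_⟩
  rw [ral_JmatC_eq, Matrix.mul_smul, Matrix.smul_mul, ral_Hc_comm]

theorem Hc_conjTranspose (x : Vec n) : (Hc x)ᴴ = Hc x := by
  exact ral_Hc_conjTranspose x

theorem Hc_add (x y : Vec n) : Hc (x + y) = Hc x + Hc y := by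
  exact rrt_Hc_add x y

theorem Hc_smul (c : ℝ) (x : Vec n) : Hc (c • x) = (c : ℂ) • Hc x := by
  exact rrt_Hc_smul c x

theorem Hc_comm (x y : Vec n) : Hc x * Hc y = Hc y * Hc x := by
  exact ral_Hc_comm x y

theorem inG_bracket (X Y : Matrix (Ix n) (Ix n) ℂ) (hX : ty.InG X) (hY : ty.InG Y) :
    ty.InG (X * Y - Y * X) := by
  refine ⟨?_, fun hA => ?_⟩
  · rw [transpose_sub, transpose_mul, transpose_mul, hX.1, hY.1]
    simp
  · have h1 := hX.2 hA
    have h2 := hY.2 hA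
    rw [sub_mul, mul_sub, Matrix.mul_assoc, h2, ← Matrix.mul_assoc, h1, Matrix.mul_assoc Y, h1,
      ← Matrix.mul_assoc Y, h2, Matrix.mul_assoc, Matrix.mul_assoc]

theorem inG_add (X Y : Matrix (Ix n) (Ix n) ℂ) (hX : ty.InG X) (hY : ty.InG Y) : ty.InG (X + Y) := by
  refine ⟨?_, fun hA => ?_⟩
  · rw [transpose_add, hX.1, hY.1, neg_add]
  · rw [add_mul, mul_add, hX.2 hA, hY.2 hA]

theorem inG_smul (c : ℂ) (X : Matrix (Ix n) (Ix n) ℂ) (hX : ty.InG X) : ty.InG (c • X) := by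
  refine ⟨?_, fun hA => ?_⟩
  · rw [transpose_smul, hX.1, smul_neg]
  · rw [Matrix.smul_mul, Matrix.mul_smul, hX.2 hA]

/-! ## (A2) operators -/

theorem op_apply (R : StarRep ty n ι) (X : Matrix (Ix n) (Ix n) ℂ) (a : ι → ℂ) :
    R.op X a = (R.ρ X).mulVec a := rfl

theorem op_bracket (R : StarRep ty n ι) (X Y : Matrix (Ix n) (Ix n) ℂ) (hX : ty.InG X)
    (hY : ty.InG Y) (a : ι → ℂ) :
    R.op (X * Y - Y * X) a = R.op X (R.op Y a) - R.op Y (R.op X a) := by
  rw [op_apply, op_apply, op_apply, op_apply, op_apply, R.bracket X Y hX hY, Matrix.sub_mulVec,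
    Matrix.mulVec_mulVec, Matrix.mulVec_mulVec]

theorem op_adjoint (R : StarRep ty n ι) (X : Matrix (Ix n) (Ix n) ℂ) (hX : ty.InG X) (a b : ι → ℂ) :
    star (R.op X a) ⬝ᵥ b = star a ⬝ᵥ R.op Xᴴ b := by
  rw [op_apply, op_apply, R.star X hX, Matrix.star_mulVec, ← Matrix.dotProduct_mulVec]

theorem star_dot_self_eq_zero (a : ι → ℂ) : star a ⬝ᵥ a = 0 ↔ a = 0 := by
  open ComplexOrder in exact dotProduct_star_self_eq_zero

end Claimed.Agent.R282
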