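import Claimed.Agent.R282.Rep.R.Api.Lie

/-!
# Row 282, Rep, LEAF L-REP-API-MISC : (A8) reindexing, (A9) `halfV`  (~200 lines)

Statements by helper103.  Unfolding.  `reindex_cyc`: the map `a ↦ a ∘ e.symm` is a linear equivalence intertwining the operators (`reindex_op`), it maps invariant subspaces containing `v` to such.
-/

set_option autoImplicit false

namespace Claimed.Agent.R282

open Claims.C0456 Matrix

variable {n : ℕ} {ty : Ty}
variable {ι ι' : Type} [Fintype ι] [DecidableEq ι] [Fintype ι'] [DecidableEq ι']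

/-! ## (A8) reindexing -/

theorem apiMisc_mulVec (A : Matrix ι ι ℂ) (e : ι ≃ ι') (a : ι → ℂ) :
    (Matrix.reindexLinearEquiv ℂ ℂ e e A).mulVec (a ∘ e.symm) = (A.mulVec a) ∘ e.symm := by
  funext i
  simp only [Matrix.mulVec, dotProduct, Matrix.coe_reindexLinearEquiv, Matrix.reindex_apply,
    Matrix.submatrix_apply, Function.comp_apply]
  exact Equiv.sum_comp e.symm (fun j => A (e.symm i) j * a j)

theorem reindex_op (R : StarRep ty n ι) (e : ι ≃ ι') (X : Matrix (Ix n) (Ix n) ℂ) (a : ι → ℂ) :
    (R.reindex e).op X (a ∘ e.symm) = (R.op X a) ∘ e.symm := by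
  exact apiMisc_mulVec (R.ρ X) e a

theorem reindex_isHW (R : StarRep ty n ι) (e : ι ≃ ι') (v : ι → ℂ) (lam : Vec n) (h : IsHW R v lam) :
    IsHW (R.reindex e) (v ∘ e.symm) lam := by
  refine ⟨?_, ?_, ?_⟩
  · intro h0
    apply h.ne
    funext i
    have := congrFun h0 (e i)
    simpa using this
  · intro x
    have h1 := reindex_op R e (Hc x) v
    rw [op_apply, op_apply, h.wt x] at h1
    rw [h1]
    rfl
  · intro β E hβ hE
    have h1 := reindex_op R e E v
    rw [op_apply, op_apply, h.top β E hβ hE] at h1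
    rw [h1]
    rfl

/-- transport of subspaces -/
noncomputable def apiMiscEquiv (e : ι ≃ ι') : (ι → ℂ) ≃ₗ[ℂ] (ι' → ℂ) := LinearEquiv.funCongrLeft ℂ ℂ e.symm

theorem apiMisc_equiv_apply (e : ι ≃ ι') (a : ι → ℂ) : apiMiscEquiv e a = a ∘ e.symm := rfl

theorem reindex_cyc (R : StarRep ty n ι) (e : ι ≃ ι') (v a : ι → ℂ) :
    a ∘ e.symm ∈ (R.reindex e).cyc (v ∘ e.symm) ↔ a ∈ R.cyc v := by
  unfold StarRep.cyc
  rw [Submodule.mem_sInf, Submodule.mem_sInf]
  constructor
  · intro h S hS
    have h1 := h (S.map (apiMiscEquiv e).toLinearMap) ⟨⟨v, hS.1, rfl⟩, ?_⟩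
    · obtain ⟨b, hb, hba⟩ := h1
      have : b = a := (apiMiscEquiv e).injective hba
      rw [← this]
      exact hb
    · rintro X hX _ ⟨b, hb, rfl⟩
      refine ⟨(R.ρ X).mulVec b, hS.2 X hX b hb, ?_⟩
      exact (reindex_op R e X b).symm
  · intro h S hS
    have h1 := h (S.comap (apiMiscEquiv e).toLinearMap) ⟨hS.1, ?_⟩
    · exact h1
    · intro X hX b hb
      show ((R.ρ X).mulVec b) ∘ e.symm ∈ S
      have := hS.2 X hX _ hb
      have h2 := reindex_op R e X b
      rw [op_apply, op_apply] at h2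
      rw [← h2]
      exact this

/-! ## (A9) `halfV` -/

theorem halfV_injective : Function.Injective (halfV : (Fin n → ℤ) → Vec n) := by
  intro L M h
  funext i
  have := congrFun h i
  simp only [halfV] at this
  have h2 : (L i : ℝ) = M i := by linarith
  exact_mod_cast h2

theorem halfV_add (L M : Fin n → ℤ) : halfV (L + M) = halfV L + halfV M := by
  funext i
  simp only [halfV, Pi.add_apply]
  push_cast
  ring

theorem halfV_sub (L M : Fin n → ℤ) : halfV (L - M) = halfV L - halfV M := by
  funext i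
  simp only [halfV, Pi.sub_apply]
  push_cast
  ring

theorem halfV_spa (σ : Equiv.Perm (Fin n)) (s : Fin n → Bool)
    (hs : Even (Finset.univ.filter fun i => s i = true).card) (L : Fin n → ℤ) :
    halfV (signedPermAct σ s L) = (⟨σ, s, hs⟩ : WD n).act (halfV L) := by
  funext i
  simp only [halfV, signedPermAct, WD.act, sgnB]
  split_ifs <;> push_cast <;> ring

theorem halfV_posRoot2 (i j : Fin n) (hij : i < j) (plus : Bool) :
    halfV (posRoot2 i j plus) = (⟨i, j, ne_of_lt hij, false, !plus⟩ : RootD n).vec := by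
  funext k
  simp only [halfV, posRoot2, RootD.vec, sgnB]
  cases plus <;> by_cases h1 : k = i <;> by_cases h2 : k = j <;> simp [h1, h2]

theorem halfV_rho2 : halfV (rho2 n) = rhoV n := by
  funext i
  simp only [halfV, rho2, rhoV]
  push_cast
  ring

end Claimed.Agent.R282
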