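import Claimed.Agent.R282.Rep.R.Api.Inv
import Claimed.Agent.R282.Defs.Dot

/-!
# Row 282, Rep, LEAF L-REP-API-WT : (A5) weights  (~500 lines)

Statements by helper103.  Cite `Api/Lie`, `Api/Inv` freely.  The operators `R.op (Hc x)` commute (`op_bracket`, `Hc_comm`, `map_zero`) and are Hermitian (`op_adjoint`, `Hc_conjTranspose`), and `x ↦ R.op (Hc x)` is `ℝ`-linear.
So every invariant subspace is the orthogonal direct sum of its weight spaces: induction over the coordinates `x = e_i` of the torus (a Hermitian operator on an invariant subspace is diagonalisable with real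
eigenvalues; the eigenspaces are invariant under the commuting operators), or Mathlib `LinearMap.IsSymmetric.directSum_isInternal_of_pairwise_commute` in `EuclideanSpace ℂ ι`.
A joint eigenvector for `e_1 … e_n` with eigenvalues `χ_i` has weight `χ` (linearity).  `wt_shift`: `isRootVec_rootVec` + `op_bracket`.
`wt_orth`: choose `x` with `dot χ x ≠ dot χ' x`.  `wt_finite`: independent nonzero subspaces of a finite-dimensional space.
-/

set_option autoImplicit false

namespace Claimed.Agent.R282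

open Claims.C0456 Matrix

variable {n : ℕ} {ty : Ty}
variable {ι ι' : Type} [Fintype ι] [DecidableEq ι] [Fintype ι'] [DecidableEq ι']

/-! ## (A5) weights -/

theorem mem_wt (R : StarRep ty n ι) (χ : Vec n) (a : ι → ℂ) :
    a ∈ R.wt χ ↔ ∀ x : Vec n, R.op (Hc x) a = ((dot χ x : ℝ) : ℂ) • a := by
  simp only [StarRep.wt, Submodule.mem_iInf, LinearMap.mem_ker, LinearMap.sub_apply,
    LinearMap.smul_apply, LinearMap.id_apply, sub_eq_zero]

theorem raw_op_smul (R : StarRep ty n ι) (c : ℂ) (X : Matrix (Ix n) (Ix n) ℂ) (a : ι → ℂ) :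
    R.op (c • X) a = c • R.op X a := by
  simp only [StarRep.op, map_smul, LinearMap.smul_apply]

theorem raw_op_sum (R : StarRep ty n ι) {κ : Type*} (s : Finset κ)
    (X : κ → Matrix (Ix n) (Ix n) ℂ) (a : ι → ℂ) :
    R.op (∑ i ∈ s, X i) a = ∑ i ∈ s, R.op (X i) a := by
  simp only [StarRep.op, map_sum, LinearMap.sum_apply]

theorem wt_shift (R : StarRep Ty.D n ι) (χ : Vec n) (β : RootD n) (a : ι → ℂ) (h : a ∈ R.wt χ) :
    R.op (rootVec β) a ∈ R.wt (χ + β.vec) := by
  rw [mem_wt] at h ⊢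
  intro x
  obtain ⟨hE, hx⟩ := isRootVec_rootVec β
  have h1 := op_bracket R (Hc x) (rootVec β) (inG_Hc x) hE a
  rw [hx x, raw_op_smul, h x, map_smul] at h1
  rw [dot_add_left, Complex.ofReal_add, add_smul]
  rw [eq_sub_iff_add_eq] at h1
  rw [← h1, add_comm]

theorem wt_orth (R : StarRep ty n ι) (χ χ' : Vec n) (hne : χ ≠ χ') (a b : ι → ℂ) (ha : a ∈ R.wt χ)
    (hb : b ∈ R.wt χ') : star a ⬝ᵥ b = 0 := by
  rw [mem_wt] at ha hb
  have h1 := op_adjoint R (Hc (χ - χ')) (inG_Hc _) a b
  rw [Hc_conjTranspose, ha, hb, star_smul, smul_dotProduct, dotProduct_smul, smul_eq_mul,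
    smul_eq_mul] at h1
  have h2 : star ((dot χ (χ - χ') : ℝ) : ℂ) = ((dot χ (χ - χ') : ℝ) : ℂ) := Complex.conj_ofReal _
  rw [h2] at h1
  have h3 : (((dot χ (χ - χ') : ℝ) : ℂ) - ((dot χ' (χ - χ') : ℝ) : ℂ)) * (star a ⬝ᵥ b) = 0 := by
    rw [sub_mul, h1, sub_self]
  rcases mul_eq_zero.mp h3 with h4 | h4
  · exfalso
    rw [← Complex.ofReal_sub, Complex.ofReal_eq_zero, ← dot_sub_left, dot_self_eq_zero,
      sub_eq_zero] at h4
    exact hne h4
  · exact h4

theorem wt_indep (R : StarRep ty n ι) : iSupIndep fun χ : Vec n => R.wt χ := by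
  intro χ
  refine (disjoint_iff.mpr (orthC_inf (R.wt χ))).mono_right ?_
  refine iSup₂_le fun χ' hne b hb a ha => ?_
  exact wt_orth R χ χ' (Ne.symm hne) a b ha hb

theorem wt_finite (R : StarRep ty n ι) : {χ : Vec n | R.wt χ ≠ ⊥}.Finite := by
  exact WellFoundedGT.finite_ne_bot_of_iSupIndep (wt_indep R)

theorem raw_Hc_zero : Hc (0 : Vec n) = 0 := by
  have := Hc_smul 0 (0 : Vec n)
  simpa using this

theorem raw_Hc_finsum {κ : Type*} (s : Finset κ) (f : κ → Vec n) :
    Hc (∑ i ∈ s, f i) = ∑ i ∈ s, Hc (f i) := by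
  classical
  induction s using Finset.induction_on with
  | empty => simpa using raw_Hc_zero
  | insert a s ha ih => rw [Finset.sum_insert ha, Finset.sum_insert ha, Hc_add, ih]

theorem raw_Hc_sum (x : Vec n) : Hc x = ∑ i, (x i : ℂ) • Hc (Pi.single i 1) := by
  conv_lhs => rw [pi_eq_sum_univ' x]
  rw [raw_Hc_finsum]
  exact Finset.sum_congr rfl fun i _ => Hc_smul _ _

/-- a joint eigenvector of the coordinate operators is a weight vector -/
theorem raw_mem_wt_of_coord (R : StarRep ty n ι) (r : Vec n) (a : ι → ℂ)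
    (h : ∀ i, R.op (Hc (Pi.single i 1)) a = ((r i : ℝ) : ℂ) • a) : a ∈ R.wt r := by
  rw [mem_wt]
  intro x
  rw [raw_Hc_sum x, raw_op_sum]
  simp only [raw_op_smul, h, smul_smul]
  rw [← Finset.sum_smul]
  congr 1
  rw [dot, Complex.ofReal_sum]
  exact Finset.sum_congr rfl fun i _ => by rw [Complex.ofReal_mul, mul_comm]

theorem raw_eig_real (R : StarRep ty n ι) (x : Vec n) (μ : ℂ) (a : ι → ℂ) (ha : a ≠ 0)
    (h : R.op (Hc x) a = μ • a) : ((μ.re : ℝ) : ℂ) = μ := by
  have h1 := op_adjoint R (Hc x) (inG_Hc _) a a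
  rw [Hc_conjTranspose, h, star_smul, smul_dotProduct, dotProduct_smul, smul_eq_mul,
    smul_eq_mul] at h1
  have h2 : star a ⬝ᵥ a ≠ 0 := fun e => ha ((star_dot_self_eq_zero a).mp e)
  have h3 : star μ = μ := mul_right_cancel₀ h2 h1
  exact (Complex.conj_eq_iff_real.mp h3).choose_spec ▸ by simp

theorem raw_top (R : StarRep ty n ι) : (⨆ χ : Vec n, R.wt χ) = ⊤ := by
  set T : Fin n → EuclideanSpace ℂ ι →ₗ[ℂ] EuclideanSpace ℂ ι :=
    fun i => Matrix.toEuclideanLin (R.ρ (Hc (Pi.single i 1))) with hTdef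
  have hT : ∀ i, (T i).IsSymmetric := fun i =>
    Matrix.isSymmetric_toEuclideanLin_iff.mpr (by
      rw [Matrix.IsHermitian, ← R.star _ (inG_Hc _), Hc_conjTranspose])
  have hC : Pairwise (Function.onFun Commute T) := by
    intro i j _
    show T i * T j = T j * T i
    have hb := R.bracket (Hc (Pi.single i 1)) (Hc (Pi.single j 1)) (inG_Hc _) (inG_Hc _)
    rw [Hc_comm, sub_self, map_zero, eq_comm, sub_eq_zero] at hb
    ext1 v
    simp only [Module.End.mul_apply, hTdef, Matrix.toLpLin_apply, Matrix.mulVec_mulVec, hb]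
  have key := LinearMap.IsSymmetric.iSup_iInf_eq_top_of_commute hT hC
  have main : ∀ v : EuclideanSpace ℂ ι,
      v ∈ (⨆ χ : Fin n → ℂ, ⨅ i, Module.End.eigenspace (T i) (χ i)) →
        WithLp.ofLp v ∈ ⨆ χ : Vec n, R.wt χ := by
    intro v hv
    induction hv using Submodule.iSup_induction' with
    | mem χ v hv =>
      by_cases h0 : WithLp.ofLp v = 0
      · rw [h0]; exact zero_mem _
      have hi : ∀ i, R.op (Hc (Pi.single i 1)) (WithLp.ofLp v) = χ i • WithLp.ofLp v := by
        intro i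
        have := Module.End.mem_eigenspace_iff.mp ((Submodule.mem_iInf _).mp hv i)
        have h2 := congrArg WithLp.ofLp this
        rw [WithLp.ofLp_smul] at h2
        rw [← h2]
        rfl
      refine Submodule.mem_iSup_of_mem (fun i => (χ i).re) ?_
      refine raw_mem_wt_of_coord R _ _ fun i => ?_
      rw [raw_eig_real R _ _ _ h0 (hi i)]
      exact hi i
    | zero => exact zero_mem _
    | add x y _ _ hx hy => exact add_mem hx hy
  rw [eq_top_iff]
  intro a _
  exact main (WithLp.toLp 2 a) (by rw [key]; trivial)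

theorem wt_decomp (R : StarRep ty n ι) (S : Submodule ℂ (ι → ℂ)) (h : R.Inv S) :
    S = ⨆ χ : Vec n, S ⊓ R.wt χ := by
  refine le_antisymm ?_ (iSup_le fun χ => inf_le_left)
  obtain ⟨P, hP1, hP2, -, hP4, -⟩ := exists_proj R S h
  have main : ∀ b : ι → ℂ, b ∈ (⨆ χ : Vec n, R.wt χ) → P b ∈ ⨆ χ : Vec n, S ⊓ R.wt χ := by
    intro b hb
    induction hb using Submodule.iSup_induction' with
    | mem χ b hb =>
      refine Submodule.mem_iSup_of_mem χ ⟨hP1 b, ?_⟩
      rw [SetLike.mem_coe, mem_wt] at *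
      intro x
      rw [← hP4 _ (inG_Hc x), hb x, map_smul]
    | zero => rw [map_zero]; exact zero_mem _
    | add x y _ _ hx hy => rw [map_add]; exact add_mem hx hy
  intro a ha
  rw [← hP2 a ha]
  exact main a (by rw [raw_top]; trivial)

/-- the components of a vector of an invariant subspace -/
theorem wt_components (R : StarRep ty n ι) (S : Submodule ℂ (ι → ℂ)) (h : R.Inv S) (a : ι → ℂ)
    (ha : a ∈ S) : ∃ (F : Finset (Vec n)) (c : Vec n → ι → ℂ), (∀ χ ∈ F, c χ ∈ S ⊓ R.wt χ) ∧
      a = ∑ χ ∈ F, c χ := by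
  rw [wt_decomp R S h] at ha
  obtain ⟨f, hf, rfl⟩ := (Submodule.mem_iSup_iff_exists_finsupp _ _).mp ha
  exact ⟨f.support, f, fun χ _ => hf χ, rfl⟩

omit [DecidableEq ι] in
theorem raw_finrank_sup {κ : Type*} (N : κ → Submodule ℂ (ι → ℂ)) (hN : iSupIndep N)
    (F : Finset κ) : Module.finrank ℂ (F.sup N : Submodule ℂ (ι → ℂ)) =
      ∑ i ∈ F, Module.finrank ℂ (N i) := by
  classical
  induction F using Finset.induction_on with
  | empty => simp
  | insert a F ha ih =>
    rw [Finset.sup_insert, Finset.sum_insert ha, ← ih]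
    have hd : Disjoint (N a) (F.sup N) :=
      (hN.supIndep' (insert a F)) (Finset.subset_insert a F) (Finset.mem_insert_self a F) ha
    have := Submodule.finrank_sup_add_finrank_inf_eq (N a) (F.sup N)
    rw [disjoint_iff.mp hd, finrank_bot, add_zero] at this
    exact this

theorem finrank_eq_sum_mult (R : StarRep ty n ι) (S : Submodule ℂ (ι → ℂ)) (h : R.Inv S)
    (F : Finset (Vec n)) (hF : ∀ χ, R.mult S χ ≠ 0 → χ ∈ F) :
    Module.finrank ℂ S = ∑ χ ∈ F, R.mult S χ := by
  have hind : iSupIndep fun χ : Vec n => S ⊓ R.wt χ :=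
    (wt_indep R).mono fun χ => inf_le_right
  have hS : S = F.sup fun χ : Vec n => S ⊓ R.wt χ := by
    refine le_antisymm ?_ (Finset.sup_le fun χ _ => inf_le_left)
    conv_lhs => rw [wt_decomp R S h]
    refine iSup_le fun χ => ?_
    by_cases hχ : χ ∈ F
    · exact Finset.le_sup (f := fun χ : Vec n => S ⊓ R.wt χ) hχ
    · have : R.mult S χ = 0 := by
        by_contra hne
        exact hχ (hF χ hne)
      rw [StarRep.mult, Submodule.finrank_eq_zero] at this
      rw [this]; exact bot_le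
  conv_lhs => rw [hS]
  exact raw_finrank_sup _ hind F

end Claimed.Agent.R282
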